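import Vale.Agent.P216.Ch2.D246.Dim

/-!
# P216-B7, row Z6: the top class of a closed manifold modulo two
-/

set_option linter.all false

open Set Filter Topology

namespace Vale.Agent.P216.B7337

open Vale.Agent.P216 Vale.Agent.P216.Ch2
open Vale.Agent.P216.D246 Vale.Agent.P216.Ch2.D246

open Vale.Agent.P216.AS Vale.Agent.P216.Ch2.AS Vale.Agent.P216.H901 Vale.Agent.P216.Ch2.H901 Vale.Agent.P216.H83 Vale.Agent.P216.Ch2.H83 Vale.Agent.P216.Sl Vale.Agent.P216.PS Vale.Agent.P216.H133C Vale.Agent.P216.Ch2.H133C Vale.Agent.P216.C313 Vale.Agent.P216.Ch2.C313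

open Vale.Agent.P216.Ch2.D246.Cub

variable {M : Type} [MetricSpace M] [CompactSpace M] {n : ℕ}

theorem zmod_two_eq_one {t : ZMod 2} (h : t ≠ 0) : t = 1 := by
  revert h
  revert t
  decide

/-- Modulo two every transition number is one. -/
theorem trn_one (e : Hr (tr (Unit × (Fin n → ℝ))) (on (ZMod 2)) (cbE n (univ : Set Unit))
      (bdE n univ ∅) n ≃ₗ[ZMod 2] ZMod 2) (c c' : Cub M n) (w : Fin n → ℝ) (η : ℝ) (hη : 0 < η)
      (hb : ‖w‖ + η ≤ 2) (hs : c.A1 0 2 ⊆ c'.A1 w η) :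
      cc e c two_pos h02 (resR subset_rfl hs n (gb e (ok (ZMod 2)) c' hη hb)) = 1 := by
  obtain ⟨h1, h3⟩ := ctr_box (c := c') hη hb
  have h4 : c'.ψ w ∉ c'.A1 w η := notMem_A1 h1 (by rw [h3, sub_self, norm_zero]; exact hη)
  have h5 := of_notMem_A1 fun h => h4 (hs h)
  rw [sub_zero] at h5
  apply zmod_two_eq_one
  refine trn_ne e (ok (ZMod 2)) (c := c) (c' := c') (b := c'.ψ w) h5.1 h5.2 h1 ?_
    ⟨w, η, hη, hb, hs, h1, by rw [h3, sub_self, norm_zero]; exact hη, rfl⟩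
  rw [h3]
  linarith

/-- The top class of a chart is not zero modulo two. -/
theorem lesA_gb_ne_two (e : Hr (tr (Unit × (Fin n → ℝ))) (on (ZMod 2)) (cbE n (univ : Set Unit))
      (bdE n univ ∅) n ≃ₗ[ZMod 2] ZMod 2) (hn : 1 ≤ n) (loc : LocEuc M n) (c : Cub M n) :
    lesA (ZMod 2) (univ : Set M) (c.A1 0 2) n (gb e (ok (ZMod 2)) c two_pos h02) ≠ 0 := by
  classical
  have h2 := ok (ZMod 2)
  have loc' := loc
  choose C hC hC0 using loc
  have h01 : ‖(0 : Fin n → ℝ)‖ + 1 ≤ 2 := by rw [norm_zero]; norm_num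
  have hcl : ∀ T : Finset M, IsCompact {a : M | ∀ b ∈ T, a ∈ (C b).A1 0 1} := by
    intro T
    have : {a : M | ∀ b ∈ T, a ∈ (C b).A1 0 1} = ⋂ b ∈ T, (C b).A1 0 1 := by
      ext a
      simp
    rw [this]
    exact (isClosed_biInter fun b _ => (compact_A1 h01).isClosed).isCompact
  have hone : ∀ c : Cub M n, Cns e h2 (fun _ => 1) (c.A1 0 1) (cc e c one_pos h01) := by
    intro c c' w η hη hb hs
    have i1 : ‖(0 : Fin n → ℝ) - 0‖ + 1 ≤ 2 := by rwa [sub_zero]
    rw [← cc_res e one_pos two_pos i1 h02 h01 (A1_anti i1), resR_resR]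
    exact trn_one e c c' w η hη hb _
  have main : ∀ T : Finset M, ∃ I : Hr (tr M) (on (ZMod 2)) (univ : Set M)
      {a : M | ∀ b ∈ T, a ∈ (C b).A1 0 1} n →ₗ[ZMod 2] ZMod 2, Cns e h2 (fun _ => 1) _ I := by
    intro T
    induction T using Finset.induction_on with
    | empty =>
      refine ⟨0, fun c w η hη hb hs => ?_⟩
      obtain ⟨h1, h3⟩ := ctr_box (c := c) hη hb
      exact absurd (hs (show c.ψ w ∈ {a : M | ∀ b ∈ (∅ : Finset M), a ∈ (C b).A1 0 1} from
        fun b hb => absurd hb (Finset.notMem_empty b)))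
        (notMem_A1 h1 (by rw [h3, sub_self, norm_zero]; exact hη))
    | insert b T hb ih =>
      obtain ⟨IL, hIL⟩ := ih
      obtain ⟨I, hI⟩ := cns_inter e h2 hn loc' (compact_A1 (c := C b) h01) (hcl T)
        (noH_top' h2 hn one_le_two (hcl T)) (hone (C b)) hIL
      have e1 : {a : M | ∀ d ∈ insert b T, a ∈ (C d).A1 0 1} =
          (C b).A1 0 1 ∩ {a | ∀ d ∈ T, a ∈ (C d).A1 0 1} := by
        ext a
        simp
      rw [e1]
      exact ⟨I, hI⟩
  obtain ⟨T, hT⟩ := isCompact_univ.elim_nhds_subcover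
    (fun b : M => {a | a ∈ (C b).D ∧ ‖(C b).φ a - 0‖ < 1}) fun b _ => by
      refine (isOpen_box h01).mem_nhds ⟨hC b, ?_⟩
      rw [hC0, sub_zero, norm_zero]
      exact one_pos
  have hB : {a : M | ∀ b ∈ T, a ∈ (C b).A1 0 1} ⊆ (∅ : Set M) := by
    intro a ha
    obtain ⟨b, hb, hb'⟩ := mem_iUnion₂.1 (hT.2 (mem_univ a))
    exact absurd (ha b hb hb'.1) (not_le.2 hb'.2)
  obtain ⟨I, hI⟩ := main T
  intro h0
  have h1 := hI c 0 2 two_pos h02 (hB.trans (empty_subset _))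
  have e1 : resR subset_rfl (hB.trans (empty_subset _)) n (gb e h2 c two_pos h02) =
      resR subset_rfl hB n (lesA (ZMod 2) (univ : Set M) (c.A1 0 2) n
        (gb e h2 c two_pos h02)) := by
    rw [lesA, resR_resR]
  rw [e1, h0, map_zero, map_zero] at h1
  exact zero_ne_one h1

/-- The top class modulo two, for list cocycles. -/
theorem exists_not_exL_two (E : Type) [NormedAddCommGroup E] [NormedSpace ℝ E]
    [FiniteDimensional ℝ E] (M : Type) [MetricSpace M] [CompactSpace M] [ChartedSpace E M]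
    [Nonempty M] (hn : 1 ≤ Module.finrank ℝ E) :
    ∃ w : List M → ZMod 2, CocL (univ : Set M) (Module.finrank ℝ E) w ∧
      ¬ ExL (univ : Set M) (Module.finrank ℝ E) w := by
  have loc : LocEuc M (Module.finrank ℝ E) := D907.cub E M
  obtain ⟨e⟩ := cube_equiv (k := ZMod 2) (ok (ZMod 2)) (Module.finrank ℝ E)
  obtain ⟨b⟩ : Nonempty M := inferInstance
  obtain ⟨c, -, -⟩ := loc b
  obtain ⟨w, hw, hN, h⟩ := exists_cls ((absE (ZMod 2) (univ : Set M)
    (Module.finrank ℝ E)).symm (lesA (ZMod 2) (univ : Set M) (c.A1 0 2) (Module.finrank ℝ E)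
      (gb e (ok (ZMod 2)) c two_pos h02)))
  refine ⟨w, hw, fun hex => lesA_gb_ne_two e hn loc c ?_⟩
  rw [cls_eq_zero.2 hex] at h
  rw [← (absE (ZMod 2) (univ : Set M) (Module.finrank ℝ E)).apply_symm_apply
    (lesA (ZMod 2) (univ : Set M) (c.A1 0 2) (Module.finrank ℝ E)
      (gb e (ok (ZMod 2)) c two_pos h02)), ← h, map_zero]

end Vale.Agent.P216.B7337
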