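import Vale.Agent.P216.B7.Props
import Vale.Agent.P216.B7337.Top2

/-!
# P216-B7, row Z6
-/

set_option linter.all false

namespace Vale.Agent.P216.B7337

/-- **Z6.** -/
theorem z6Goal : B7.Z6Goal := by
  intro E _ _ _ M _ _ _ _ hn
  exact exists_not_exL_two E M hn

end Vale.Agent.P216.B7337
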